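import Crest.Agent.X212.Dtp51.Main
import Crest.Agent.X212.Dm83.Tm
import Crest.Agent.X212.Mp86.Cv1
import Crest.Agent.X212.Mp86.Cv2
import Crest.Agent.X212.Ix82.Fin
import Crest.Agent.X212.Cyl58.Pos
import Crest.Agent.X212.Ulc97.Reg
import Crest.Agent.X212.Cut19.Lr
import Crest.Agent.X212.Cut19.Cg
import Crest.Agent.X212.Cut19.Cut
import Crest.Agent.X212.Cut19.Mid
import Crest.Agent.X212.Cut19.Main
import Crest.Agent.X212.Nv5.Bsr
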