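import Crest.Agent.X212.Lab56.Exi

-- ▼ part X212/Nv5/ChA
section

/-!
# Row 212, layer GEO (helper5): the constant module on a frame

* `sc4 e` : the constant module on the frame `e`, `j0` : the constant section of its determinant line;
* `ri_rot` : a rotation by `g` in one plane multiplies `j0` by `g`;  `ri_cst` : constant changes fix `j0`;
* `dC`, `dP` : the cartesian and the polar datum on `S¹ × ℂ × ℝ`;  `ri_CP`, `ri_gl`.
-/

set_option autoImplicit false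
set_option linter.unusedSectionVars false

open Set Filter Topology Function Matrix Module
open scoped ContDiff Manifold Kronecker ComplexOrder MatrixOrder
open Crest.Agent.X212.Pj41 Crest.Agent.X212.Met55 Crest.Agent.X212.Lab56
open Crest.Agent.X212.Line51 (Uni)
open Crest.Agent.X212.Glue52 (dir)

noncomputable section

namespace Crest.Agent.X212.Nv5.Ch

/-! ### algebra -/

theorem gam_eq : gam = ![!![0, 0, -1, 0; 0, 0, 0, -1; 1, 0, 0, 0; 0, 1, 0, 0],
    !![0, 0, 0, .I; 0, 0, .I, 0; 0, .I, 0, 0; .I, 0, 0, 0],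
    !![0, 0, 0, 1; 0, 0, -1, 0; 0, 1, 0, 0; -1, 0, 0, 0],
    !![0, 0, .I, 0; 0, 0, 0, -.I; .I, 0, 0, 0; 0, -.I, 0, 0]] := by
  ext a i j
  fin_cases a <;> fin_cases i <;> fin_cases j <;> simp [gam, gaZ, GaussianInt.toComplex_def']

/-- the real structure -/
def J0 : Matrix (Fin 4) (Fin 4) ℂ := !![0, 1, 0, 0; -1, 0, 0, 0; 0, 0, 0, 1; 0, 0, -1, 0]

/-- the rotation -/
def Rm (g : ℂ) : Matrix (Fin 4) (Fin 4) ℝ := !![g.re, 0, 0, -g.im; 0, 1, 0, 0; 0, 0, 1, 0; g.im, 0, 0, g.re]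

/-- its lift -/
def ul (g : ℂ) : Matrix (Fin 4) (Fin 4) ℂ := diagonal ![g, 1, 1, g]

theorem p4_one : P4 (1 : Matrix (Fin 4) (Fin 4) ℝ) :=
  ⟨⟨fun a b => by simp [one_apply, eq_comm], fun a b => congrFun (congrFun (Matrix.mul_one 1) a) b⟩, by simp⟩

theorem un_J0 : Un (cj 1) (fun a => cj (gam a)) 1 gam J0 := by
  rw [cj, conjTranspose_one, transpose_one]
  refine ⟨⟨?_, ?_, Matrix.mul_one _⟩, fun a => ?_⟩
  · ext i j
    fin_cases i <;> fin_cases j <;> simp [J0, mul_apply, Fin.sum_univ_four]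
  · ext i j
    fin_cases i <;> fin_cases j <;> simp [J0, mul_apply, Fin.sum_univ_four]
  · ext i j
    fin_cases a <;> fin_cases i <;> fin_cases j <;> simp [J0, gam_eq, mul_apply, Fin.sum_univ_four]

theorem un_ul (g : Circle) : Un 1 (rot (Rm g) gam) 1 gam (ul g) := by
  have e : (starRingEnd ℂ) (g : ℂ) * g = 1 := by rw [Complex.conj_mul', Circle.norm_coe]; simp
  have e' : (g : ℂ).re * (g : ℂ).re + (g : ℂ).im * (g : ℂ).im = 1 := by simpa using congrArg Complex.re e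
  refine ⟨⟨?_, ?_, Matrix.mul_one _⟩, fun a => ?_⟩
  · ext i j
    fin_cases i <;> fin_cases j <;> simp [ul, mul_apply, Fin.sum_univ_four, e]
  · ext i j
    fin_cases i <;> fin_cases j <;> simp [ul, mul_apply, Fin.sum_univ_four, (mul_comm _ _).trans e]
  · ext i j
    fin_cases a <;> fin_cases i <;> fin_cases j <;>
      simp [ul, Rm, rot, gam_eq, Fin.sum_univ_four, Complex.ext_iff, e', mul_comm (g : ℂ).im] <;> linarith

theorem ul_J0 (g : ℂ) : ul g * J0 * (ul g)ᵀ = g • J0 := by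
  ext i j
  fin_cases i <;> fin_cases j <;> simp [ul, J0]

theorem piso_Rm (g : Circle) : PIso (Rm g) 1 1 := by
  have e : (g : ℂ).re * (g : ℂ).re + (g : ℂ).im * (g : ℂ).im = 1 := by
    simpa [Complex.normSq_apply] using Circle.normSq_coe g
  refine ⟨?_, ?_, Matrix.mul_one _⟩ <;> ext i j <;> fin_cases i <;> fin_cases j <;>
    simp [Rm, mul_apply, Fin.sum_univ_four] <;> linarith

theorem nrm_pd {R D : Matrix (Fin 4) (Fin 4) ℝ} (hR : PIso R 1 1) (hD : D.PosDef) : nrm 1 (R * D) = R := by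
  have e : CFC.sqrt (gram 1 (R * D)) = D := CFC.sqrt_unique (by
    rw [Pj41.gram, sub_self, add_zero, conjTranspose_mul, hD.isHermitian.eq, Matrix.mul_assoc,
      ← Matrix.mul_assoc Rᴴ, hR.src, Matrix.one_mul]) hD.posSemidef.nonneg
  rw [nrm, e, mul_nonsing_inv_cancel_right _ _ ((isUnit_iff_isUnit_det _).1 hD.isUnit)]

/-- the constant section -/
def j0 : Matrix (Fin 4 × Fin 4) Unit ℂ := Lab56.vec ((1 / 2 : ℂ) • J0)

theorem piso_j0 : PIso j0 1 (hP (fun a => cj (gam a)) gam) := un_J0.col p4_one pc_gam.bar pc_gam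

/-! ### frames -/

section fr

variable {E : Type} [NormedAddCommGroup E] [NormedSpace ℝ E] [FiniteDimensional ℝ E]
  {H : Type} [TopologicalSpace H] {I : ModelWithCorners ℝ E H}
  {M : Type} [TopologicalSpace M] [ChartedSpace H M] [IsManifold I ∞ M]
  {e w : Fin 4 → VF I M} {O : Set M} {x : M} (h4 : finrank ℝ E = 4)

/-- the constant module -/
def sc4 (e : Fin 4 → VF I M) : Sc I M (Fin 4) (Fin 4) := ⟨e, fun _ => 1, fun c _ => gam c⟩

theorem ri_rot {g : M → Circle} (hg : ∀ x ∈ O, FSm I (fun y => (g y : ℂ)) x)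
    (h : ∀ x ∈ O, pol e w x = Rm (g x)) :
    RI (sc4 e) (fun _ => j0) (sc4 w) (fun x => (g x : ℂ) • j0) O := by
  refine ⟨fun x => ul (g x), ⟨fun x hx i j => ?_, fun x hx => ?_⟩, fun x _ => ?_⟩
  · fin_cases i <;> fin_cases j <;> simp [ul, hg x hx, contMDiffAt_const]
  · show Un 1 (rot (pol e w x) gam) 1 gam _
    rw [h x hx]
    exact un_ul _
  · rw [kk, j0, kk_vec, Matrix.mul_smul, Matrix.smul_mul, ul_J0, smul_comm, Lab56.vec_smul]

include h4

theorem fP_one (hs : Sp (atx e x)) : fP e x = 1 :=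
  (prj_fP hs).eq_of_trace Prj.one (Matrix.one_mul _) ((p4_fP h4 hs).rk.trans (by simp))

theorem rf_sc4 (h : ∀ x ∈ O, FAt e x) : Rf (sc4 e) (fun _ => j0) O :=
  ⟨⟨h, fun x hx => p4_fP h4 (h x hx).sp, fun _ _ => MSm.const _, fun _ _ _ => MSm.const _,
    fun x hx => (fP_one h4 (h x hx).sp).symm ▸ pc_gam⟩, fun _ _ => MSm.const _, fun _ _ => piso_j0⟩

theorem pol_eq (hs : Sp (atx e x)) (hw : Sp (atx w x)) {A : Matrix (Fin 4) (Fin 4) ℝ}
    (h : ∀ k, w k x = ∑ a, A a k • e a x) : pol e w x = nrm 1 A := by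
  rw [pol, fP_one h4 hw]
  congr 1
  ext a k
  rw [fM_apply, fT, h k]
  exact (congrFun (th_sum (v := atx e x) _) a).trans (by
    rw [show prj _ (atx e x) = 1 from fP_one h4 hs, one_mulVec])

theorem ri_cst (he : ∀ x ∈ O, FAt e x) (hw : ∀ x ∈ O, FAt w x) {R : Matrix (Fin 4) (Fin 4) ℝ}
    (h : ∀ x ∈ O, pol e w x = R) : RI (sc4 e) (fun _ => j0) (sc4 w) (fun _ => j0) O := by
  rcases O.eq_empty_or_nonempty with rfl | ⟨x, hx⟩
  · exact ⟨0, ⟨fun _ h => h.elim, fun _ h => h.elim⟩, fun _ h => h.elim⟩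
  have p := piso_pol (he x hx).sp (hw x hx).sp
  rw [h x hx, fP_one h4 (he x hx).sp, fP_one h4 (hw x hx).sp] at p
  obtain ⟨σ, hσ⟩ := exists_un p4_one (pc_gam.rot p) pc_gam
  have i : Iw (sc4 e) (sc4 w) (fun _ => σ) O := ⟨fun _ _ => MSm.const _, fun y hy => by
    show Un 1 (rot (pol e w y) gam) 1 gam _
    rwa [h y hy]⟩
  have r := piso_ratio (by simp) ((i.sec (rf_sc4 h4 he).ok (rf_sc4 h4 hw).ok (rf_sc4 h4 he).sec).iso x hx) piso_j0
  obtain ⟨c, hc⟩ := IsAlgClosed.exists_pow_nat_eq (((kk (fun _ : M => σ) x * j0)ᴴ * j0).trace) two_pos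
  exact ri_of_sq i (c := fun _ => c) (fun _ _ => contMDiffAt_const) (fun _ _ => norm_of_sq (hc ▸ r.2))
    fun _ _ => hc ▸ r.1

end fr

/-! ### the model -/

open Rod53 (IR IT Z2 gl)

/-- the universal cover -/
abbrev FF : Type := (ℝ × ℂ) × ℝ

/-- the model -/
abbrev RR : Type := (Circle × ℂ) × ℝ

/-- the basis -/
def bF : Fin 4 → FF := ![((0, 1), 0), ((1, 0), 0), ((0, 0), 1), ((0, .I), 0)]

/-- the coordinates -/
def co (v : FF) : Fin 4 → ℝ := ![v.1.2.re, v.1.1, v.2, v.1.2.im]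

theorem sum_co (v : FF) : ∑ a, co v a • bF a = v := by
  ext <;> simp [co, bF, Fin.sum_univ_four]

/-- the constant fields, pushed forward -/
def pf (f : FF → RR) (k : Fin 4) : VF IR RR := pfv 𝓘(ℝ, FF) IR f fun _ => bF k

/-- a covering with translations as deck transformations -/
structure Cv (f : FF → RR) : Prop where
  ld : ∀ x, IsLocalDiffeomorphAt 𝓘(ℝ, FF) IR ∞ f x
  per : ∀ x x', f x = f x' → ∀ y, f (y + (x' - x)) = f y

variable {f g : FF → RR}

theorem Cv.md (h : Cv f) (x : FF) : MDifferentiableAt 𝓘(ℝ, FF) IR f x :=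
  (h.ld x).contMDiffAt.mdifferentiableAt (by simp)

theorem mf_comp {Λ : FF → FF} {x : FF} {L : FF →L[ℝ] FF} (hL : HasFDerivAt Λ L x) (h : Cv f) (v : FF) :
    mfderiv 𝓘(ℝ, FF) IR (f ∘ Λ) x v = mfderiv 𝓘(ℝ, FF) IR f (Λ x) (L v) := by
  rw [mfderiv_comp x (h.md _) hL.differentiableAt.mdifferentiableAt, mfderiv_eq_fderiv, hL.fderiv]
  rfl

theorem Cv.rel (h : Cv f) (k : Fin 4) (x : FF) : mfderiv 𝓘(ℝ, FF) IR f x (bF k) = pf f k (f x) := by
  refine (FactorsThrough.extend_apply (g := fun y => (mfderiv 𝓘(ℝ, FF) IR f y (bF k) :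
    (EuclideanSpace ℝ (Fin 1) × ℂ) × ℝ)) (fun a b e => ?_) (fun _ => 0) x).symm
  have := mf_comp ((hasFDerivAt_id a).add_const (b - a)) h (bF k)
  rw [show (f ∘ fun y => id y + (b - a)) = f from funext (h.per a b e), show id a + (b - a) = b by simp] at this
  exact this

theorem Cv.fAt (h : Cv f) (x : FF) : FAt (pf f) (f x) :=
  (fAt_rel (e := fun k _ => bF k) (h.ld x) fun k => .of_forall (h.rel k)).1
    ⟨fun _ => contMDiffAt_vectorSpace_iff_contDiffAt.2 contDiffAt_const, fun v => ⟨co v, (sum_co v).symm⟩⟩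

theorem Cv.comp (h : Cv f) {Λ : FF → FF} {x : FF} {L : FF →L[ℝ] FF} (hL : HasFDerivAt Λ L x) (k : Fin 4) :
    mfderiv 𝓘(ℝ, FF) IR (f ∘ Λ) x (bF k) = ∑ a, co (L (bF k)) a • pf f a (f (Λ x)) := by
  rw [mf_comp hL h]
  conv_lhs => rw [← sum_co (L (bF k))]
  simp only [← h.rel]
  exact (map_sum _ _ _).trans (Finset.sum_congr rfl fun a _ => map_smul _ _ _)

/-- cartesian coordinates -/
def E1 (x : FF) : RR := ((Circle.exp x.1.1, x.1.2), x.2)

/-- polar coordinates -/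
def Λ (x : FF) : FF := ((x.1.1, Complex.exp x.1.2), x.2)

theorem ld_vp {A B : Type} [NormedAddCommGroup A] [NormedSpace ℝ A] [NormedAddCommGroup B] [NormedSpace ℝ B] :
    IsLocalDiffeomorph 𝓘(ℝ, A × B) (𝓘(ℝ, A).prod 𝓘(ℝ, B)) ∞ (id : A × B → A × B) :=
  (Glue52.diffeoOf id id (contDiff_fst.contMDiff.prodMk contDiff_snd.contMDiff)
    (contMDiff_fst.prodMk_space contMDiff_snd) (fun _ => rfl) fun _ => rfl).isLocalDiffeomorph

theorem cv_E1 : Cv E1 :=
  ⟨Glue52.ld_comp (Glue52.ld_prodMap (Glue52.ld_comp (Glue52.ld_prodMap Glue52.ld_circleExp Glue52.ld_id) ld_vp)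
    Glue52.ld_id) ld_vp, fun x x' e y => by
    simp only [E1, Prod.mk.injEq] at e
    simp [E1, Circle.exp_add, Circle.exp_sub, e.1.1, e.1.2, e.2]⟩

/-- the derivative of `Λ` -/
def dΛ (z : ℂ) : FF ≃L[ℝ] FF :=
  ((ContinuousLinearEquiv.refl ℝ ℝ).prodCongr ((ContinuousLinearEquiv.unitsEquivAut ℂ
    (Units.mk0 _ (Complex.exp_ne_zero z))).restrictScalars ℝ)).prodCongr (.refl ℝ ℝ)

theorem hd_Λ (x : FF) : HasFDerivAt Λ (dΛ x.1.2 : FF →L[ℝ] FF) x :=
  (HasFDerivAt.prodMap (p := x) (HasFDerivAt.prodMap (p := x.1) (hasFDerivAt_id _)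
    ((Complex.hasDerivAt_exp _).hasFDerivAt.restrictScalars ℝ)) (hasFDerivAt_id _)).congr_fderiv (by ext <;> simp [dΛ])

theorem cv_E2 : Cv (E1 ∘ Λ) :=
  ⟨fun x => (Glue52.ld_of_fderiv isOpen_univ (mem_univ x) (ContDiff.contDiffOn (by unfold Λ; fun_prop)) _
    (hd_Λ x)).comp _ _ (cv_E1.ld _), fun x x' e y => by
    simp only [E1, Λ, Function.comp_apply, Prod.mk.injEq] at e
    simp [E1, Λ, Circle.exp_add, Circle.exp_sub, Complex.exp_add, Complex.exp_sub, e.1.1, e.1.2, e.2]⟩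

theorem h4R : finrank ℝ ((EuclideanSpace ℝ (Fin 1) × ℂ) × ℝ) = 4 := by simp

theorem surj_E2 {w : RR} (h : w ∈ Zc ×ˢ (univ : Set ℝ)) : ∃ x, (E1 ∘ Λ) x = w :=
  ⟨(((w.1.1 : ℂ).arg, Complex.log w.1.2), w.2), by simp [E1, Λ, Complex.exp_log h.1]⟩

theorem fAt_C (w : RR) : FAt (pf E1) w :=
  (show E1 (((w.1.1 : ℂ).arg, w.1.2), w.2) = w by simp [E1]) ▸ cv_E1.fAt _

theorem fAt_P (w : RR) (h : w ∈ Zc ×ˢ (univ : Set ℝ)) : FAt (pf (E1 ∘ Λ)) w :=
  let ⟨x, e⟩ := surj_E2 h; e ▸ cv_E2.fAt x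

/-- the cartesian datum -/
abbrev dC : Sc IR RR (Fin 4) (Fin 4) := sc4 (pf E1)

/-- the polar datum -/
abbrev dP : Sc IR RR (Fin 4) (Fin 4) := sc4 (pf (E1 ∘ Λ))

theorem rf_C : Rf dC (fun _ => j0) univ := rf_sc4 h4R fun w _ => fAt_C w

theorem rf_P : Rf dP (fun _ => j0) (Zc ×ˢ univ) := rf_sc4 h4R fAt_P

theorem ri_CP : RI dC (fun _ => j0) dP (fun w => (dir w.1.2 : ℂ) • j0) (Zc ×ˢ univ) := by
  refine ri_rot (g := fun w : RR => dir w.1.2)
    (fun w h => Rod53.cm_coe (Rod53.cm_dir contMDiffAt_fst.snd h.1)) fun w h => ?_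
  obtain ⟨x, rfl⟩ := surj_E2 h
  rw [pol_eq h4R (fAt_C _).sp (fAt_P _ h).sp (A := of fun a k => co (dΛ x.1.2 (bF k)) a)
    fun k => (cv_E2.rel k x).symm.trans (cv_E1.comp (hd_Λ x) k)]
  have p : 0 < ‖Complex.exp x.1.2‖ := norm_pos_iff.2 (Complex.exp_ne_zero _)
  have e := Glue52.norm_mul_dir (Complex.exp x.1.2)
  show _ = Rm (dir (Complex.exp x.1.2))
  generalize dir (Complex.exp x.1.2) = g at e
  generalize ‖Complex.exp x.1.2‖ = r at e p
  rw [← nrm_pd (piso_Rm g) (D := diagonal ![r, 1, 1, r]) (PosDef.diagonal fun i => by fin_cases i <;> simp [p])]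
  congr 1
  ext a k
  fin_cases a <;> fin_cases k <;> simp [co, bF, dΛ, Rm, ← e, mul_comm]

variable {a b : Z2}

/-- the linear form of `gl` -/
def LL (a b : Z2) : FF →L[ℝ] FF := LinearMap.toContinuousLinearMap
  { toFun x := ((a.1 * x.1.2.im + b.1 * x.1.1, x.1.2.re + (a.2 * x.1.2.im + b.2 * x.1.1 : ℝ) * .I), x.2)
    map_add' x y := by ext <;> simp <;> ring
    map_smul' c x := by ext <;> simp <;> ring }

theorem gl_E2 (a b : Z2) : Prod.map (gl a b) id ∘ E1 ∘ Λ = (E1 ∘ Λ) ∘ LL a b := by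
  funext x
  have e : ∀ s t : ℝ, Complex.exp (s + t * .I) = (Real.exp s : ℂ) * Circle.exp t := fun s t => by
    rw [Complex.exp_add, Circle.coe_exp, Complex.ofReal_exp]
  have k : ∀ (m n : ℤ) (s t : ℝ), Circle.exp (m * s + n * t) = Circle.exp s ^ m * Circle.exp t ^ n :=
    fun m n s t => by rw [Circle.exp_add, Circle.exp_intCast_mul, Circle.exp_intCast_mul]
  show (gl a b (Circle.exp x.1.1, Complex.exp x.1.2), x.2) =
    ((Circle.exp (a.1 * x.1.2.im + b.1 * x.1.1), Complex.exp (_ + _ * _)), x.2)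
  rw [e, k, k, ← Rod53.gl_polar _ _ _ _ (Real.exp_pos _), ← e, Complex.re_add_im]

theorem ld_G (hu : Rod53.Uni a b) (w : RR) (h : w ∈ Zc ×ˢ (univ : Set ℝ)) :
    IsLocalDiffeomorphAt IR IR ∞ (Prod.map (gl a b) id) w :=
  Glue52.ld_prodMap_at (Rod53.ld_gl hu h.1) (Glue52.ld_id _)

theorem maps_G : MapsTo (Prod.map (gl a b) id : RR → RR) (Zc ×ˢ univ) (Zc ×ˢ univ) :=
  fun _ h => ⟨Rod53.gl_ne.2 h.1, trivial⟩

theorem ri_gl (hu : Rod53.Uni a b) :
    RI (dP.pull IR (Prod.map (gl a b) id)) (fun _ => j0) dP (fun _ => j0) (Zc ×ˢ univ) := by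
  have k := (rf_P.ok.pull (ld_G hu) maps_G).fr
  refine ri_cst h4R k fAt_P (R := nrm 1 (of fun i k => co (LL a b (bF k)) i)) fun w h =>
    pol_eq h4R (k w h).sp (fAt_P w h).sp fun j => (ld_bij (ld_G hu w h)).1 ?_
  obtain ⟨x, rfl⟩ := surj_E2 h
  have e := cv_E2.comp (LL a b).hasFDerivAt (x := x) j
  rw [← gl_E2, mfderiv_comp x ((ld_G hu _ h).contMDiffAt.mdifferentiableAt (by simp)) (cv_E2.md x),
    show (E1 ∘ Λ) (LL a b x) = _ from (congrFun (gl_E2 a b) x).symm] at e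
  rw [← cv_E2.rel]
  refine e.trans (Eq.trans (Finset.sum_congr rfl fun i _ => ?_) (map_sum _ _ _).symm)
  exact (congrArg _ (pbv_rel (ld_G hu _ h) _).symm).trans (map_smul _ _ _).symm

end Crest.Agent.X212.Nv5.Ch
end
end

-- ▼ part X212/Nv5/ChB

/-!
# Row 212, layer GEO (helper5): labels on toric manifolds are odd

* `RP` : the invariant reference;  `lab_R`, `odd_lab` : all its labels are odd;
* `dfm_ov`, `pic_ov`, `lab_ov` : labels exist over star shaped parts of the half plane;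
* `tl_univ`, `tl_disc`, `odd_wd` : orders on words are given by characters.
-/

set_option autoImplicit false
set_option linter.unusedSectionVars false

open Set Filter Topology Function Metric
open scoped ContDiff Manifold
open Crest.Agent.X212.Pj41 Crest.Agent.X212.Met55 Crest.Agent.X212.Lab56 Crest.Agent.X212.Line51
open Crest.Agent.X212.Rod53 hiding Uni cj
open Crest.Agent.X212.Glue52 (dir)
open Crest.Agent.X212.Cls19 (Sat)

noncomputable section

namespace Crest.Agent.X212.Nv5.Ch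

variable {v : ℝ → Z2} {a b : Z2} {c : ℝ} {O : Set (ℝ × ℝ)} {U : Set (X torT v)} {x : X torT v} {m : ℝ → ℤ}
  {ι κ : Type} [Fintype ι] [Fintype κ] [DecidableEq ι] [DecidableEq κ] {d : Sc (𝓡 4) (X torT v) ι κ}

/-- the invariant reference -/
def RP : Ref torT (Fin 4) (Fin 4) := ⟨dP, fun _ => j0, rf_P.mono fun _ h => ⟨torT.τ_mem.1 h.1, trivial⟩⟩

variable (v) in
/-- the cartesian datum of a rod chart -/
def dR (hu : Rod53.Uni a b) : Sc (𝓡 4) (X torT v) (Fin 4) (Fin 4) := dC.pull (𝓡 4) (torT.rod v hu).symm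

theorem rf_R (hu : Rod53.Uni a b) : Rf (dR v hu) (fun _ => j0) (torT.rod v hu).target :=
  rf_C.pull (fun _ => ld_pd (torT.rod v hu).symm) (mapsTo_univ _ _)

theorem ri_C (hu : Rod53.Uni a b) : RI (dP.pull IR (Prod.map (gl a b) id)) (fun _ => j0) dC
    (fun w => (((dir w.1.2)⁻¹ : Circle) : ℂ) • j0) (Zc ×ˢ univ) :=
  have c := rf_C.mono (subset_univ (Zc ×ˢ univ))
  (ri_gl hu).trans (isOpen_ne2.prod isOpen_univ) (rf_P.pull (ld_G hu) maps_G) rf_P.ok c.ok
    (((ri_CP.symm c rf_P.ok).smul fun w => ((dir w.1.2)⁻¹ : Circle)).of_eq (.refl _ _)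
      (fun w _ => by simp [smul_smul]) (.refl _ _) fun _ _ => rfl)

/-- **the cartesian datum has order `-1`** -/
theorem lab_R (hu : Rod53.Uni a b) :
    RP.Lab (dR v hu) (fun t => dot (dual a b (-1) 0) (v t)) (torT.rod v hu).target := by
  have o := (torT.rod v hu).open_target
  have m : MapsTo (torT.rod v hu).symm ((torT.rod v hu).target ∩ off torT v) (Zc ×ˢ univ) :=
    fun _ h => ⟨(rod_symm hu h.1).2.2 h.2, trivial⟩
  have l := fun y (h : y ∈ (torT.rod v hu).target ∩ off torT v) => ld_pd (torT.rod v hu).symm h.1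
  have r := fun y (h : y ∈ (torT.rod v hu).target) => (torT.rod v hu).right_inv h
  refine (lab_of_ri o (((ri_C hu).pull (rf_P.pull (ld_G hu) maps_G).ok (rf_C.ok.mono (subset_univ _)) l m).of_eq
    ((pull_pull dP l fun y h => ld_G hu _ (m h)).trans (pull_congr dP fun y h =>
      eventually_of_mem ((o.inter isOpen_off).mem_nhds h) fun z k => ?_)) (fun _ _ => rfl) (.refl _ _) fun y h => ?_)
    ((tl_of_fr o (rf_R hu).sec).mul (tl_chi (η := dual a b (-1) 0) (fun y _ => tor_torT v y)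
      fun _ _ _ => rep_dot _ _))).congr_m fun _ _ _ => .of_forall fun _ => (zero_add _).symm
  · conv_lhs => rw [← r z k.1]
    exact (congrArg _ (torT.rod_eq_ext hu (m k).1)).trans (ext_symm_ext (torT.τ_mem.2 (gl_ne.2 (m k).1)))
  · beta_reduce
    conv_lhs => rw [mul_sc, ← r y h.1]
    exact congrArg (fun g : Circle => (g : ℂ) • j0) ((chi_rod hu (m h).1).trans (by
      rw [dual_left hu, dual_right hu, zpow_zero, mul_one, zpow_neg_one]))

/-- **labels are odd** -/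
theorem odd_lab (hv : Loc v) (hU : IsOpen U) (hd : d.On U) (h : RP.Lab d m U) (hx : x ∈ U) (o : x ∉ off torT v)
    (hu : Rod53.Uni a b) (ht : torT.time v x ∈ Jr v a) : Odd (m (torT.time v x)) := by
  have := sigX (T := torT) hv
  obtain ⟨η, e⟩ := ((lab_R hu).mono (inter_subset_right (s := U))).par (hU.inter (torT.rod v hu).open_target)
    (RP.rfx _) ((rf_R hu).ok.mono inter_subset_right) (hd.mono inter_subset_left) (h.mono inter_subset_left)
    ⟨hx, mem_rod_target hu (tor_torT v x) (.inr ht)⟩ o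
  rw [e.self_of_nhds]
  refine Odd.add_even ?_ (even_two_mul _)
  rcases Jr.pm ht with k | k <;> simp [k, dot_neg', dual_left hu]

/-! ### star shaped sets -/

theorem pic_cvx {K : Set (ℂ × ℝ)} (hK : IsOpen K) (hc : Convex ℝ K) :
    Pic0 IR {w : RR | (w.1.2, w.2) ∈ K} {w | (w.1.2, w.2) ∈ K} := fun n _ _ q hq => by
  rcases K.eq_empty_or_nonempty with rfl | ⟨s, hs⟩
  · exact ⟨0, fun _ h => h.elim, fun _ h => h.elim⟩
  obtain ⟨f, hf⟩ := Pic56.frame_circle (hq.isLine.comp (g := fun u : Circle => ((u, s.1), s.2)) (T := univ)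
    (by fun_prop) fun _ _ => hs)
  refine Dfm.fr (O₀ := {z : RR | z.1.2 = s.1 ∧ z.2 = s.2})
    ⟨fun z => ((z.2.1.1, (1 - z.1) • s.1 + z.1 • z.2.1.2), (1 - z.1) • s.2 + z.1 • z.2.2), by fun_prop,
      fun t ht x hx => hc hs hx (sub_nonneg.2 ht.2) ht.1 (sub_add_cancel _ _), fun x _ => by simp,
      fun x _ => by simp⟩ (hK.preimage (by fun_prop)) hq (s := fun z => f z.1.1)
    ⟨((continuousOn_univ.1 hf.cont).comp (by fun_prop)).continuousOn, ?_, fun z _ => hf.ne _ trivial⟩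
  rintro ⟨⟨u, _⟩, _⟩ ⟨rfl, rfl⟩
  exact hf.sec u trivial

/-- the unit box -/
abbrev bx (c : ℝ) : Set (ℝ × ℝ) := ball c 1 ×ˢ ball 0 1

theorem rod_ov (hu : Rod53.Uni a b) {w : RR} (h : w ∈ Ur v a) :
    torT.rod v hu w ∈ torT.ov v O ↔ (w.2, ‖w.1.2‖) ∈ O := by
  rw [Tb.ov, mem_inter_iff, and_iff_right (tor_torT v _), mem_preimage, Tb.bs, torT.time_rod hu h, torT.yy_rod hu h]

theorem symm_ov (hu : Rod53.Uni a b) (h : x ∈ (torT.rod v hu).target) (k : x ∈ torT.ov v O) :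
    (((torT.rod v hu).symm x).2, ‖((torT.rod v hu).symm x).1.2‖) ∈ O :=
  (rod_ov hu ((torT.rod v hu).map_target h)).1 (((torT.rod v hu).right_inv h).symm ▸ k)

theorem pic_bx (hu : Rod53.Uni a b) (hc : ball c 1 ⊆ Jr v a) :
    Pic0 (𝓡 4) (torT.ov v (bx c)) (torT.ov v (bx c)) :=
  have k := fun x (hx : x ∈ torT.ov v (bx c)) => mem_rod_target hu hx.1 (.inr (hc hx.2.1))
  (pic_cvx (K := ball 0 1 ×ˢ ball c 1) (isOpen_ball.prod isOpen_ball) ((convex_ball _ _).prod (convex_ball _ _))).comp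
    (f := (torT.rod v hu).symm) (g := torT.rod v hu)
    (fun x hx => (ld_pd (torT.rod v hu).symm (k x hx)).contMDiffAt)
    (fun x hx => ⟨by simpa using (symm_ov hu (k x hx) hx).2, (symm_ov hu (k x hx) hx).1⟩)
    (fun _ hw => (ld_pd (torT.rod v hu) (.inr (hc hw.2))).contMDiffAt)
    (fun _ hw => (rod_ov hu (.inr (hc hw.2))).2 ⟨hw.2, by simpa using hw.1⟩)
    fun x hx => (torT.rod v hu).right_inv (k x hx)

variable (c O) in
/-- open, star shaped, containing the unit box -/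
structure St : Prop where
  op : IsOpen O
  bx : bx c ⊆ O
  st : ∀ q ∈ O, ∀ l ∈ Ioc (0 : ℝ) 1, (c + l * (q.1 - c), l * q.2) ∈ O

theorem st_univ : St c univ := ⟨isOpen_univ, subset_univ _, fun _ _ _ _ => trivial⟩

theorem st_disc {r : ℝ} (hr : 2 ≤ r) : St c {q | √((q.1 - c) ^ 2 + q.2 ^ 2) ∈ Iio r} := by
  refine ⟨isOpen_Iio.preimage (by fun_prop), fun q h => (Real.sqrt_lt' (by linarith)).2 ?_, fun q h l hl => ?_⟩
  · have h1 := abs_lt.1 (show |q.1 - c| < 1 from h.1)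
    have h2 := abs_lt.1 (show |q.2 - 0| < 1 from h.2)
    nlinarith [h1.1, h1.2, h2.1, h2.2]
  · refine lt_of_le_of_lt (Real.sqrt_le_sqrt ?_) h
    have : l ^ 2 ≤ 1 := pow_le_one₀ hl.1.le hl.2
    nlinarith [mul_nonneg (sub_nonneg.2 this) (add_nonneg (sq_nonneg (q.1 - c)) (sq_nonneg q.2))]

theorem dfm_ov (h : St c O) : Dfm (torT.ov v O ∩ off torT v) (torT.ov v (bx c) ∩ off torT v) := by
  let l : ℝ × RR → ℝ := fun z => (1 - z.1) * (1 + ‖z.2.1.2‖ + |z.2.2 - c|)⁻¹ + z.1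
  have p : ∀ w : RR, 1 ≤ 1 + ‖w.1.2‖ + |w.2 - c| := fun w => by
    linarith [norm_nonneg w.1.2, abs_nonneg (w.2 - c)]
  have l1 : ∀ t ∈ Icc (0 : ℝ) 1, ∀ w, l (t, w) ∈ Ioc (0 : ℝ) 1 := fun t ht w =>
    (convex_Ioc 0 1) ⟨inv_pos.2 (one_pos.trans_le (p w)), inv_le_one_of_one_le₀ (p w)⟩ ⟨one_pos, le_rfl⟩
      (sub_nonneg.2 ht.2) ht.1 (sub_add_cancel _ _) |> (by simpa only [smul_eq_mul, mul_one] using ·)
  have n : ∀ t ∈ Icc (0 : ℝ) 1, ∀ w : RR, ‖l (t, w) • w.1.2‖ = l (t, w) * ‖w.1.2‖ := fun t ht w => by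
    rw [norm_smul, Real.norm_of_nonneg (l1 t ht w).1.le]
  have k := fun x (hx : x ∈ torT.ov v O ∩ off torT v) => mem_rod_target uni_std hx.1.1 (.inl hx.2)
  refine Dfm.comp (S := {w : RR | w.1.2 ≠ 0 ∧ (w.2, ‖w.1.2‖) ∈ O}) (S₀ := {w | (w.2, ‖w.1.2‖) ∈ bx c})
    ⟨fun z => ((z.2.1.1, l z • z.2.1.2), c + l z * (z.2.2 - c)), Continuous.continuousOn ?_,
      fun t ht w hw => ⟨smul_ne_zero (l1 t ht w).1.ne' hw.1, n t ht w ▸ h.st _ hw.2 _ (l1 t ht w)⟩,
      fun w _ => ?_, fun w _ => by simp [l]⟩ (p := (torT.rod v uni_std).symm) (q := torT.rod v uni_std)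
    (fun x hx => (ld_pd (torT.rod v _).symm (k x hx)).contMDiffAt.continuousAt.continuousWithinAt)
    (fun x hx => ⟨(rod_symm _ (k x hx)).2.2 hx.2, symm_ov _ (k x hx) hx.1⟩)
    (fun w hw => (ld_pd (torT.rod v _) (.inl hw.1)).contMDiffAt.continuousAt.continuousWithinAt)
    (fun w hw => ⟨(rod_ov _ (.inl hw.1)).2 hw.2, (rod_mem_off _ (.inl hw.1)).2 hw.1⟩)
    (fun w hw => ⟨(rod_ov _ (.inl hw.1.1)).2 hw.2, (rod_mem_off _ (.inl hw.1.1)).2 hw.1.1⟩)
    fun x hx => (torT.rod v _).right_inv (k x hx)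
  · have : Continuous l := by
      refine ((continuous_const.sub continuous_fst).mul (Continuous.inv₀ (by fun_prop) fun z => ?_)).add continuous_fst
      exact (one_pos.trans_le (p z.2)).ne'
    fun_prop
  · have q := one_pos.trans_le (p w)
    have z := left_mem_Icc.2 (zero_le_one' ℝ)
    constructor
    · show |c + l (0, w) * (w.2 - c) - c| < 1
      rw [add_sub_cancel_left, abs_mul, abs_of_pos (l1 0 z w).1]
      simp only [l, sub_zero, one_mul, add_zero]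
      rw [inv_mul_lt_iff₀ q]
      linarith [norm_nonneg w.1.2]
    · rw [mem_ball_zero_iff, norm_norm, n 0 z]
      simp only [l, sub_zero, one_mul, add_zero]
      rw [inv_mul_lt_iff₀ q]
      linarith [abs_nonneg (w.2 - c)]

theorem yy_axis (h : x ∉ off torT v) : torT.yy v x = 0 :=
  ((torT.ext_or_axis x).resolve_left fun ⟨_, k, e⟩ => h (e ▸ ext_mem_off k)).2.1

theorem axis_ov (h : x ∉ off torT v) : x ∈ torT.ov v O ↔ (torT.time v x, 0) ∈ O := by
  rw [Tb.ov, mem_inter_iff, and_iff_right (tor_torT v _), mem_preimage, Tb.bs, yy_axis h]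

theorem sat_ov : Sat torT v (torT.ov v O) := fun _ h o _ o' e => (axis_ov o').2 (e ▸ (axis_ov o).1 h)

section ex

variable (hv : Loc v) (hu : Rod53.Uni a b) (hc : ball c 1 ⊆ Jr v a) (h : St c O)
include hv hu hc h

/-- lines are trivial off the axis -/
theorem pic_ov : Pic0 (𝓡 4) (torT.ov v O) (torT.ov v O ∩ off torT v) :=
  have := sigX (T := torT) hv
  ((pic_bx hu hc).mono (inter_subset_inter_right _ (preimage_mono h.bx)) inter_subset_left).dfm (dfm_ov h)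
    ((torT.isOpen_ov h.op).inter isOpen_off) inter_subset_left

/-- **labels exist** -/
theorem lab_ov (hd : d.On (torT.ov v O)) : ∃ m, RP.Lab d m (torT.ov v O) := by
  have := sigX (T := torT) hv
  have s : torT.ov v (bx c) ⊆ torT.ov v O := inter_subset_inter_right _ (preimage_mono h.bx)
  have t : torT.ov v (bx c) ⊆ (torT.rod v hu).target := fun x hx => mem_rod_target hu hx.1 (.inr (hc hx.2.1))
  have r := (rf_R (v := v) hu).ok.mono t
  exact exists_lab (torT.isOpen_ov h.op) sat_ov (RP.rfx _) hd ((dfm_ov h).eqv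
    ((torT.isOpen_ov h.op).inter isOpen_off) (inter_subset_inter_left _ s) (RP.rfx _).ok (hd.mono inter_subset_left)
    (((lab_R hu).mono t).eqv_off.trans ((torT.isOpen_ov (isOpen_ball.prod isOpen_ball)).inter isOpen_off)
      (RP.rfx _).ok (r.mono inter_subset_left) (hd.mono (inter_subset_left.trans s))
      (((pic_bx hu hc).eqv subset_rfl r (hd.mono s)).mono inter_subset_left)))

end ex

/-! ### words -/

variable {w : ℤ → Z2} {i j : ℤ} {r t : ℝ} {k : ℤ → ℤ} {p : X torT (wd w) → Matrix κ κ ℂ}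
  {s : X torT (wd w) → Matrix κ Unit ℂ} {D : Sc (𝓡 4) (X torT (wd w)) ι κ}

variable (w k) in
/-- the characters `e` have the orders `k` -/
def Chs (e : ℤ → Z2) : Prop := ∀ l, dot (e l) (w (l - 1)) = k (l - 1) ∧ dot (e l) (w l) = k l

theorem axis_disc (h : x ∉ off torT v) : x ∈ torT.disc v c (Iio r) ↔ torT.time v x ∈ Ioo (c - r) (c + r) := by
  rw [Tb.mem_disc, and_iff_right (tor_torT v _), (torT.rr_axis h).2, mem_Iio, abs_sub_lt_iff, mem_Ioo,
    sub_lt_iff_lt_add', sub_lt_comm, and_comm]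

theorem tl_univ (hw : IsWd w) (h : TL torT (wd w) m p s univ) :
    ∃ k e, Chs w k e ∧ TL torT (wd w) (wm w k) p s univ := by
  obtain ⟨k, h⟩ := Cls19.tl_wd isOpen_univ h fun i => by
    rw [← preimage_univ (f := torT.time (wd w)), Cls19.img_time hw.loc, univ_inter]
    exact isPreconnected_Ioo
  choose e he using fun l : ℤ => let ⟨_, o, e⟩ := Cls19.exists_axis (T := torT) hw.loc l
    Cls19.tl_vch h (mem_univ _) o e
  exact ⟨k, e, he, h⟩

theorem tl_disc (hw : IsWd w) (hij : i ≤ j) (h1 : c - r ∈ Ico ((i : ℝ) - 1) i) (h2 : c + r ∈ Ioc (j : ℝ) (j + 1))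
    (h : TL torT (wd w) m p s (torT.disc (wd w) c (Iio r))) :
    ∃ k e, Chs w k e ∧ TL torT (wd w) (wm w k) p s (torT.disc (wd w) c (Iio r)) := by
  obtain ⟨n, h⟩ := Cls19.tl_wd (torT.isOpen_disc isOpen_Iio) h fun i => by
    have : torT.time (wd w) '' (torT.disc (wd w) c (Iio r) \ off torT (wd w)) = Ioo (c - r) (c + r) :=
      Subset.antisymm (by rintro _ ⟨x, hx, rfl⟩; exact (axis_disc hx.2).1 hx.1) fun t ht =>
        let ⟨x, o, e⟩ := Cls19.exists_axis (T := torT) hw.loc t; ⟨x, ⟨(axis_disc o).2 (e ▸ ht), o⟩, e⟩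
    exact this ▸ (ordConnected_Ioo.inter ordConnected_Ioo).isPreconnected
  have : ∀ l : ℤ, ∃ η, i ≤ l → l ≤ j → dot η (w (l - 1)) = n (l - 1) ∧ dot η (w l) = n l := fun l => by
    by_cases q : i ≤ l ∧ l ≤ j
    · obtain ⟨x, o, e⟩ := Cls19.exists_axis (T := torT) hw.loc l
      exact (Cls19.tl_vch h ((axis_disc o).2 (e ▸ ⟨h1.2.trans_le (by exact_mod_cast q.1),
        lt_of_le_of_lt (by exact_mod_cast q.2) h2.1⟩)) o e).imp fun _ a _ _ => a
    · exact ⟨0, fun a b => (q ⟨a, b⟩).elim⟩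
  choose e he using this
  refine ⟨fun l => dot (e (max i (min l j))) (w l), fun l => e (max i (min l j)), fun l => ⟨?_, rfl⟩,
    h.congr_m fun x hx o => eventually_of_mem (isOpen_Ioo.mem_nhds ((axis_disc o).1 hx)) fun t ht =>
      wm_congr (i := i - 1) (j := j) (fun _ _ _ => rfl) (fun l a b => ?_)
        ⟨by push_cast; exact h1.1.trans_lt ht.1, ht.2.trans_le h2.2⟩⟩
  · by_cases q : i < l ∧ l ≤ j
    · beta_reduce
      rw [show max i (min l j) = l by omega, show max i (min (l - 1) j) = l - 1 by omega,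
        (he l q.1.le q.2).1, (he (l - 1) (by omega) (by omega)).2]
    · beta_reduce
      rw [show max i (min l j) = max i (min (l - 1) j) by omega]
  · rcases a.eq_or_lt with rfl | a
    · rw [show max i (min (i - 1) j) = i by omega, (he i le_rfl hij).1]
    · rw [show max i (min l j) = l by omega, (he l (by omega) b).2]

theorem odd_wd (hw : IsWd w) {U : Set (X torT (wd w))} (hU : IsOpen U) (hd : D.On U) (h : RP.Lab D (wm w k) U)
    (ht : t ∈ Ioo (i : ℝ) (i + 1)) (hx : ∀ x, x ∉ off torT (wd w) → torT.time (wd w) x = t → x ∈ U) : Odd (k i) := by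
  obtain ⟨x, o, e⟩ := Cls19.exists_axis (T := torT) hw.loc t
  obtain ⟨b, hu⟩ := hw.prim i
  have := odd_lab hw.loc hU hd h (hx x o e) o hu (e ▸ Ioo_subset_Jr ht)
  rwa [e, wm_of_mem ht] at this

end Crest.Agent.X212.Nv5.Ch
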