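import Crest.Agent.X212.Sw87.Cob
import Crest.Agent.X212.Sw87.Scn
import Crest.Agent.X212.Sw87.Rod
import Crest.Agent.X212.Sw87.In
import Crest.Agent.X212.Lab56.Lk
import Crest.Agent.X212.Lab56.Th
import Crest.Agent.X212.Deg17.Rod
import Crest.Agent.X212.Deg17.Th
import Crest.Agent.X212.Rw22.Line
import Crest.Agent.X212.Rw22.Main
import Crest.Agent.X212.Rob53.Df2
import Crest.Agent.X212.Sw87.Top
import Crest.Agent.X212.Nv5.Lem
import Crest.Agent.X212.Nv5.Step
import Crest.Agent.X212.Nv5.Main
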